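import Vale.Agent.P105.SalemDefs

/-!
# Sums over finite sets of reals, and the mean of a cosine over the partial sums
-/

open MeasureTheory Real Filter Topology
open scoped ENNReal

namespace Vale.Agent.P105.H892

/-- a sum over a finite set of reals, at most `K` in each interval of length `δ`, is bounded
by the integral. -/
theorem sum_le_integral {V : Finset ℝ} {L δ K M : ℝ} (hL : 0 ≤ L) (hδ : 0 < δ) (_hK : 0 ≤ K)
    (hV : ∀ y ∈ V, |y| ≤ L)
    (hcard : ∀ x : ℝ, ((V.filter fun y => x ≤ y ∧ y ≤ x + δ).card : ℝ) ≤ K)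
    {f : ℝ → ℝ} (hf : Continuous f) (hf0 : ∀ x, 0 ≤ f x)
    (hosc : ∀ x y, |x - y| ≤ δ → f y ≤ exp M * f x) :
    ∑ y ∈ V, f y ≤ K * δ⁻¹ * exp M * ∫ x in (-(L + δ))..(L + δ), f x := by
  set S : Set ℝ := Set.Icc (-(L + δ)) (L + δ) with hS
  have hint : ∀ a c : ℝ, IntegrableOn f (Set.Icc a c) := fun a c =>
    hf.continuousOn.integrableOn_Icc
  -- each term
  have h1 : ∀ y ∈ V, δ * f y ≤ exp M * ∫ x, (Set.Icc y (y + δ)).indicator f x := by
    intro y hy
    rw [integral_indicator measurableSet_Icc, ← integral_const_mul]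
    have h2 : ∫ x in Set.Icc y (y + δ), f y = δ * f y := by
      rw [setIntegral_const]
      simp only [Measure.real, Real.volume_Icc, smul_eq_mul]
      rw [add_sub_cancel_left, ENNReal.toReal_ofReal hδ.le]
    rw [← h2]
    refine setIntegral_mono_on ?_ ?_ measurableSet_Icc ?_
    · exact integrableOn_const (by simp)
    · exact (hint _ _).const_mul _
    · intro x hx
      refine hosc x y ?_
      rw [abs_le]
      constructor <;> linarith [hx.1, hx.2]
  have h2 : ∀ y ∈ V, Integrable ((Set.Icc y (y + δ)).indicator f) := fun y _ =>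
    (integrable_indicator_iff measurableSet_Icc).2 (hint _ _)
  have h3 : δ * ∑ y ∈ V, f y ≤ exp M * ∫ x, ∑ y ∈ V, (Set.Icc y (y + δ)).indicator f x := by
    rw [integral_finsetSum _ h2, Finset.mul_sum, Finset.mul_sum]
    exact Finset.sum_le_sum h1
  have h4 : ∫ x, ∑ y ∈ V, (Set.Icc y (y + δ)).indicator f x ≤ ∫ x, K * S.indicator f x := by
    refine integral_mono (integrable_finsetSum _ h2)
      (((integrable_indicator_iff measurableSet_Icc).2 (hint _ _)).const_mul _) ?_
    intro x
    show ∑ y ∈ V, (Set.Icc y (y + δ)).indicator f x ≤ K * S.indicator f x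
    by_cases hx : x ∈ S
    · rw [Set.indicator_of_mem hx]
      have h5 : ∀ y ∈ V, (Set.Icc y (y + δ)).indicator f x =
          if (x - δ ≤ y ∧ y ≤ x - δ + δ) then f x else 0 := by
        intro y _
        by_cases h : x ∈ Set.Icc y (y + δ)
        · rw [Set.indicator_of_mem h, if_pos]
          constructor <;> linarith [h.1, h.2]
        · rw [Set.indicator_of_notMem h, if_neg]
          rintro ⟨h6, h7⟩
          exact h ⟨by linarith, by linarith⟩
      rw [Finset.sum_congr rfl h5, ← Finset.sum_filter, Finset.sum_const, nsmul_eq_mul]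
      exact mul_le_mul_of_nonneg_right (hcard (x - δ)) (hf0 x)
    · rw [Set.indicator_of_notMem hx, mul_zero]
      refine le_of_eq (Finset.sum_eq_zero fun y hy => ?_)
      refine Set.indicator_of_notMem (fun h => hx ?_) _
      have := abs_le.1 (hV y hy)
      exact ⟨by linarith [h.1, this.1], by linarith [h.2, this.2]⟩
  have h5 : ∫ x, K * S.indicator f x = K * ∫ x in (-(L + δ))..(L + δ), f x := by
    rw [integral_const_mul, integral_indicator measurableSet_Icc,
      intervalIntegral.integral_of_le (by linarith), integral_Icc_eq_integral_Ioc]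
  have h6 : δ * ∑ y ∈ V, f y ≤ exp M * (K * ∫ x in (-(L + δ))..(L + δ), f x) := by
    refine h3.trans (mul_le_mul_of_nonneg_left ?_ (exp_pos M).le)
    rw [← h5]
    exact h4
  calc ∑ y ∈ V, f y = δ⁻¹ * (δ * ∑ y ∈ V, f y) := by field_simp
    _ ≤ δ⁻¹ * (exp M * (K * ∫ x in (-(L + δ))..(L + δ), f x)) := by gcongr
    _ = _ := by ring

theorem psum_snoc' (lam : ℝ) (n : ℕ) (e : Fin n → Bool) (b : Bool) :
    psum lam (n + 1) (Fin.snoc e b : Fin (n + 1) → Bool) = psum lam n e + sgn b * lam ^ n := by
  unfold psum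
  rw [Fin.sum_univ_castSucc]
  simp only [Fin.snoc_castSucc, Fin.val_castSucc, Fin.snoc_last, Fin.val_last]

theorem sum_words (n : ℕ) (F : (Fin (n + 1) → Bool) → ℝ) :
    ∑ e', F e' = ∑ e' : Fin n → Bool, (F (Fin.snoc e' true) + F (Fin.snoc e' false)) := by
  rw [← (Fin.snocEquiv (fun _ : Fin (n + 1) => Bool)).sum_comp, Fintype.sum_prod_type]
  have e2 : ∀ (b : Bool) (e : Fin n → Bool),
      (Fin.snocEquiv (fun _ : Fin (n + 1) => Bool)) (b, e) = (Fin.snoc e b : Fin (n + 1) → Bool) := by
    intro b e; rfl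
  simp only [Fintype.univ_bool, e2]
  rw [Finset.sum_pair (by simp), Finset.sum_add_distrib]

theorem sum_cos_sin (lam t : ℝ) (n : ℕ) : ∀ φ : ℝ,
    ∑ e : Fin n → Bool, cos (t * psum lam n e + φ) =
      2 ^ n * (cos φ * ∏ i ∈ Finset.range n, cos (t * lam ^ i)) := by
  induction n with
  | zero =>
    intro φ
    simp [psum]
  | succ n ih =>
    intro φ
    rw [sum_words]
    have h : ∀ e : Fin n → Bool, cos (t * psum lam (n + 1) (Fin.snoc e true) + φ) +
        cos (t * psum lam (n + 1) (Fin.snoc e false) + φ) =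
        (2 * cos (t * lam ^ n)) * cos (t * psum lam n e + φ) := by
      intro e
      rw [psum_snoc', psum_snoc']
      have s1 : sgn true = 1 := by simp [sgn]
      have s2 : sgn false = -1 := by simp [sgn]
      rw [s1, s2]
      have e1 : t * (psum lam n e + 1 * lam ^ n) + φ = (t * psum lam n e + φ) + t * lam ^ n := by
        ring
      have e2 : t * (psum lam n e + -1 * lam ^ n) + φ = (t * psum lam n e + φ) - t * lam ^ n := by
        ring
      rw [e1, e2, cos_add, cos_sub]
      ring
    simp_rw [h]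
    rw [← Finset.mul_sum, ih φ, Finset.prod_range_succ]
    ring

/-- the mean of a cosine over the partial sums -/
theorem mean_cos (lam t : ℝ) (n : ℕ) :
    (∑ e : Fin n → Bool, cos (t * psum lam n e)) / 2 ^ n =
      ∏ i ∈ Finset.range n, cos (t * lam ^ i) := by
  have h := sum_cos_sin lam t n 0
  simp only [add_zero, cos_zero, one_mul] at h
  rw [h]
  field_simp

theorem abs_psum_le {lam : ℝ} (h0 : 0 < lam) (h1 : lam < 1) (n : ℕ) (e : Fin n → Bool) :
    |psum lam n e| ≤ 1 / (1 - lam) := by
  unfold psum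
  have habs : ∀ b : Bool, |sgn b| = 1 := by
    intro b
    cases b <;> simp [sgn]
  calc |∑ i, sgn (e i) * lam ^ (i : ℕ)| ≤ ∑ i : Fin n, |sgn (e i) * lam ^ (i : ℕ)| :=
        Finset.abs_sum_le_sum_abs _ _
    _ = ∑ i : Fin n, lam ^ (i : ℕ) := by
        refine Finset.sum_congr rfl fun i _ => ?_
        rw [abs_mul, habs, one_mul, abs_of_pos (by positivity)]
    _ = ∑ i ∈ Finset.range n, lam ^ i := Fin.sum_univ_eq_sum_range (fun i => lam ^ i) n
    _ ≤ 1 / (1 - lam) := by
        rw [one_div, ← tsum_geometric_of_lt_one h0.le h1]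
        exact (summable_geometric_of_lt_one h0.le h1).sum_le_tsum _ (fun i _ => by positivity)

end Vale.Agent.P105.H892
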