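import Mathlib

/-!
# Exponential moments of lacunary cosine sums
-/

open MeasureTheory Real Filter Topology

namespace Vale.Agent.P105.H892

theorem integral_exp_neg_abs : ∫ x : ℝ, exp (-|x|) = 2 := by
  have h := integral_comp_abs (f := fun x : ℝ => exp (-x))
  rw [h, integral_exp_neg_Ioi_zero, mul_one]

theorem integrable_exp_neg_abs : Integrable (fun x : ℝ => exp (-|x|)) := by
  refine Integrable.of_integral_ne_zero ?_
  rw [integral_exp_neg_abs]
  norm_num

/-- half-period shift -/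
theorem abs_integral_mul_cos_le {G : ℝ → ℝ} (hG : Integrable G) (h0 : ∀ x, 0 ≤ G x) {κ ω : ℝ}
    (hκ : 0 ≤ κ) (hω : 0 < ω) (φ : ℝ) (h1 : ∀ x h, G (x + h) ≤ exp (κ * |h|) * G x) :
    |∫ x, G x * cos (ω * x + φ)| ≤ κ * (π / ω) * ∫ x, G x := by
  set h : ℝ := π / ω with hh
  have hh0 : 0 < h := by positivity
  have hint : ∀ ψ : ℝ, Integrable fun x => G x * cos (ω * x + ψ) := fun ψ =>
    hG.mul_of_top_left (by
      refine memLp_top_of_bound (by fun_prop) 1 (Eventually.of_forall fun x => ?_)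
      exact abs_cos_le_one _)
  have hGh : Integrable fun x => G (x + h) := hG.comp_add_right h
  have hint2 : Integrable fun x => G (x + h) * cos (ω * x + φ) :=
    hGh.mul_of_top_left (by
      refine memLp_top_of_bound (by fun_prop) 1 (Eventually.of_forall fun x => ?_)
      exact abs_cos_le_one _)
  have hI0 : 0 ≤ ∫ x, G x := integral_nonneg h0
  -- the trivial bound
  have ht : |∫ x, G x * cos (ω * x + φ)| ≤ ∫ x, G x := by
    rw [← Real.norm_eq_abs]
    refine (norm_integral_le_integral_norm _).trans ?_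
    refine integral_mono (hint φ).norm hG fun x => ?_
    show ‖G x * cos (ω * x + φ)‖ ≤ G x
    rw [Real.norm_eq_abs, abs_mul, abs_of_nonneg (h0 x)]
    exact mul_le_of_le_one_right (h0 x) (abs_cos_le_one _)
  rcases le_total 1 (κ * h) with hκh | hκh
  · refine ht.trans ?_
    nlinarith
  -- the shift
  have hs : ∫ x, G x * cos (ω * x + φ) = -∫ x, G (x + h) * cos (ω * x + φ) := by
    rw [← integral_add_right_eq_self (fun x => G x * cos (ω * x + φ)) h, ← integral_neg]
    congr 1
    ext x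
    have : ω * (x + h) + φ = (ω * x + φ) + π := by
      rw [hh]
      field_simp
      ring
    rw [this, cos_add_pi]
    ring
  have hd : ∀ x, |G x - G (x + h)| ≤ (exp (κ * h) - 1) * G x := by
    intro x
    have h2 := h1 x h
    have h3 := h1 (x + h) (-h)
    rw [abs_of_pos hh0] at h2
    rw [add_neg_cancel_right, abs_neg, abs_of_pos hh0] at h3
    have h4 : 1 ≤ exp (κ * h) := one_le_exp (by positivity)
    have h5 : exp (-(κ * h)) * exp (κ * h) = 1 := by rw [← exp_add]; simp
    have h6 : 0 < exp (-(κ * h)) := exp_pos _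
    have h7 := h0 x
    rw [abs_le]
    constructor
    · linarith
    · have h8 : exp (-(κ * h)) * G x ≤ G (x + h) := by
        calc exp (-(κ * h)) * G x ≤ exp (-(κ * h)) * (exp (κ * h) * G (x + h)) := by gcongr
          _ = G (x + h) := by rw [← mul_assoc, h5, one_mul]
      have h9 : 2 - exp (κ * h) ≤ exp (-(κ * h)) := by
        nlinarith [sq_nonneg (exp (κ * h) - 1)]
      nlinarith
  have h2 : 2 * ∫ x, G x * cos (ω * x + φ) = ∫ x, (G x - G (x + h)) * cos (ω * x + φ) := by
    have : ∫ x, (G x - G (x + h)) * cos (ω * x + φ) =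
        (∫ x, G x * cos (ω * x + φ)) - ∫ x, G (x + h) * cos (ω * x + φ) := by
      rw [← integral_sub (hint φ) hint2]
      congr 1
      ext x
      ring
    rw [this]
    linarith
  have h3 : |∫ x, (G x - G (x + h)) * cos (ω * x + φ)| ≤ (exp (κ * h) - 1) * ∫ x, G x := by
    rw [← Real.norm_eq_abs, ← integral_const_mul]
    refine (norm_integral_le_integral_norm _).trans ?_
    refine integral_mono ?_ (hG.const_mul _) fun x => ?_
    · have := (hint φ).sub hint2
      refine (this.congr (Eventually.of_forall fun x => ?_)).norm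
      simp only [Pi.sub_apply]
      ring
    · show ‖(G x - G (x + h)) * cos (ω * x + φ)‖ ≤ (exp (κ * h) - 1) * G x
      rw [Real.norm_eq_abs, abs_mul]
      exact (mul_le_of_le_one_right (abs_nonneg _) (abs_cos_le_one _)).trans (hd x)
  have h4 : exp (κ * h) - 1 ≤ 2 * (κ * h) := by
    have h5 := Real.abs_exp_sub_one_sub_id_le (x := κ * h) (by
      rw [abs_of_nonneg (by positivity)]
      exact hκh)
    have h6 := (abs_le.1 h5).2
    have h7 : 0 ≤ κ * h := by positivity
    nlinarith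
  rw [← h2, abs_mul, abs_two] at h3
  have h5 : (exp (κ * h) - 1) * ∫ x, G x ≤ 2 * (κ * h) * ∫ x, G x := by gcongr
  linarith

/-- the weighted exponential -/
noncomputable def GG (η : ℝ) (ω s φ : ℕ → ℝ) (J : ℕ) (x : ℝ) : ℝ :=
  exp (-|x| + η * ∑ j ∈ Finset.range J, s j * cos (ω j * x + φ j))

theorem GG_cont (η : ℝ) (ω s φ : ℕ → ℝ) (J : ℕ) : Continuous (GG η ω s φ J) := by
  unfold GG
  fun_prop

theorem abs_term_le {s ω φ : ℕ → ℝ} (hs : ∀ j, |s j| ≤ 1) (j : ℕ) (x : ℝ) :
    |s j * cos (ω j * x + φ j)| ≤ 1 := by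
  rw [abs_mul]
  exact mul_le_one₀ (hs j) (abs_nonneg _) (abs_cos_le_one _)

theorem GG_integrable {η : ℝ} (h0 : 0 ≤ η) {ω s φ : ℕ → ℝ} (hs : ∀ j, |s j| ≤ 1) (J : ℕ) :
    Integrable (GG η ω s φ J) := by
  refine (integrable_exp_neg_abs.const_mul (exp (η * J))).mono'
    (GG_cont η ω s φ J).aestronglyMeasurable (Eventually.of_forall fun x => ?_)
  unfold GG
  rw [Real.norm_eq_abs, abs_of_pos (exp_pos _), ← exp_add]
  refine exp_le_exp.2 ?_
  have h1 : ∑ j ∈ Finset.range J, s j * cos (ω j * x + φ j) ≤ J := by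
    have h2 : ∀ j ∈ Finset.range J, s j * cos (ω j * x + φ j) ≤ (1 : ℝ) := fun j _ =>
      (le_abs_self _).trans (abs_term_le hs j x)
    simpa using Finset.sum_le_sum h2
  nlinarith

theorem GG_lip {η : ℝ} (h0 : 0 ≤ η) {ω s φ : ℕ → ℝ} (hs : ∀ j, |s j| ≤ 1) (hω : ∀ j, 0 < ω j)
    (J : ℕ) (x h : ℝ) : GG η ω s φ J (x + h) ≤
      exp ((1 + η * ∑ j ∈ Finset.range J, ω j) * |h|) * GG η ω s φ J x := by
  unfold GG
  rw [← exp_add]
  refine exp_le_exp.2 ?_
  have h1 : -|x + h| ≤ |h| - |x| := by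
    have := abs_sub_abs_le_abs_sub x (-h)
    rw [sub_neg_eq_add, abs_neg] at this
    linarith
  have h2 : ∀ j ∈ Finset.range J, s j * cos (ω j * (x + h) + φ j) - s j * cos (ω j * x + φ j) ≤
      ω j * |h| := by
    intro j _
    have h3 := abs_cos_sub_cos_le (ω j * (x + h) + φ j) (ω j * x + φ j)
    have h4 : ω j * (x + h) + φ j - (ω j * x + φ j) = ω j * h := by ring
    rw [h4, abs_mul, abs_of_pos (hω j)] at h3
    calc s j * cos (ω j * (x + h) + φ j) - s j * cos (ω j * x + φ j)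
        = s j * (cos (ω j * (x + h) + φ j) - cos (ω j * x + φ j)) := by ring
      _ ≤ |s j * (cos (ω j * (x + h) + φ j) - cos (ω j * x + φ j))| := le_abs_self _
      _ = |s j| * |cos (ω j * (x + h) + φ j) - cos (ω j * x + φ j)| := abs_mul _ _
      _ ≤ 1 * (ω j * |h|) := mul_le_mul (hs j) h3 (abs_nonneg _) zero_le_one
      _ = ω j * |h| := one_mul _
  have h3 := Finset.sum_le_sum h2
  rw [Finset.sum_sub_distrib, ← Finset.sum_mul] at h3
  nlinarith

theorem exp_le_quad {η t : ℝ} (h0 : 0 ≤ η) (h1 : η ≤ 1) (ht : |t| ≤ 1) :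
    exp (η * t) ≤ 1 + η * t + η ^ 2 := by
  have h2 : |η * t| ≤ 1 := by
    rw [abs_mul, abs_of_nonneg h0]
    exact mul_le_one₀ h1 (abs_nonneg _) ht
  have h3 := (abs_le.1 (Real.abs_exp_sub_one_sub_id_le h2)).2
  have h4 : (η * t) ^ 2 ≤ η ^ 2 := by
    rw [mul_pow]
    have : t ^ 2 ≤ 1 := by
      rw [← sq_abs]
      exact pow_le_one₀ (abs_nonneg _) ht
    nlinarith [sq_nonneg η]
  linarith

theorem sum_freq_le {ω : ℕ → ℝ} (hω0 : 0 < ω 0) (hω : ∀ j, 4 * ω j ≤ ω (j + 1)) (J : ℕ) :
    (∀ j, 0 < ω j) ∧ ∑ j ∈ Finset.range J, ω j ≤ ω J / 3 := by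
  have hpos : ∀ j, 0 < ω j := by
    intro j
    induction j with
    | zero => exact hω0
    | succ j ih => linarith [hω j]
  refine ⟨hpos, ?_⟩
  induction J with
  | zero => simp only [Finset.range_zero, Finset.sum_empty]; linarith
  | succ J ih =>
    rw [Finset.sum_range_succ]
    linarith [hω J]

theorem sum_inv_freq_le {ω : ℕ → ℝ} (hω0 : 0 < ω 0) (hω : ∀ j, 4 * ω j ≤ ω (j + 1)) (J : ℕ) :
    ∑ j ∈ Finset.range J, 1 / ω j + 4 / 3 * (1 / ω J) ≤ 4 / 3 * (1 / ω 0) := by
  have hpos := (sum_freq_le hω0 hω 0).1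
  induction J with
  | zero => simp
  | succ J ih =>
    rw [Finset.sum_range_succ]
    have h1 : 1 / ω (J + 1) ≤ 1 / (4 * ω J) :=
      one_div_le_one_div_of_le (by linarith [hpos J]) (hω J)
    have h2 : 1 / (4 * ω J) = 1 / 4 * (1 / ω J) := by
      rw [one_div_mul_one_div]
    rw [h2] at h1
    linarith

theorem GG_moment {η : ℝ} (h0 : 0 ≤ η) (h1 : η ≤ 1) {ω s φ : ℕ → ℝ} (hs : ∀ j, |s j| ≤ 1)
    (hω0 : 0 < ω 0) (hω : ∀ j, 4 * ω j ≤ ω (j + 1)) (J : ℕ) :
    ∫ x, GG η ω s φ J x ≤ 2 * exp (3 * η ^ 2 * J + 4 * ∑ j ∈ Finset.range J, 1 / ω j) := by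
  have hpos := (sum_freq_le hω0 hω 0).1
  induction J with
  | zero =>
    unfold GG
    simp only [Finset.range_zero, Finset.sum_empty, mul_zero, add_zero, Nat.cast_zero, exp_zero,
      mul_one]
    exact integral_exp_neg_abs.le
  | succ J ih =>
    set I := ∫ x, GG η ω s φ J x with hI
    have hI0 : 0 ≤ I := integral_nonneg fun x => (exp_pos _).le
    have hint := GG_integrable h0 (ω := ω) (φ := φ) hs J
    have hcos : Integrable fun x => GG η ω s φ J x * cos (ω J * x + φ J) :=
      hint.mul_of_top_left (by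
        refine memLp_top_of_bound (by fun_prop) 1 (Eventually.of_forall fun x => ?_)
        exact abs_cos_le_one _)
    have h2 := abs_integral_mul_cos_le hint (fun x => (exp_pos _).le) (κ := 1 + η * ∑ j ∈ Finset.range J, ω j)
      (by
        have : 0 ≤ ∑ j ∈ Finset.range J, ω j := Finset.sum_nonneg fun j _ => (hpos j).le
        positivity) (hpos J) (φ J) (GG_lip h0 hs hpos J)
    have hstep : ∫ x, GG η ω s φ (J + 1) x ≤ (1 + η ^ 2) * I +
        η * s J * ∫ x, GG η ω s φ J x * cos (ω J * x + φ J) := by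
      rw [hI, ← integral_const_mul, ← integral_const_mul, ← integral_add (hint.const_mul _)
        (hcos.const_mul _)]
      refine integral_mono (GG_integrable h0 hs (J + 1)) ((hint.const_mul _).add
        (hcos.const_mul _)) fun x => ?_
      show GG η ω s φ (J + 1) x ≤ (1 + η ^ 2) * GG η ω s φ J x +
        η * s J * (GG η ω s φ J x * cos (ω J * x + φ J))
      have h3 : GG η ω s φ (J + 1) x = GG η ω s φ J x * exp (η * (s J * cos (ω J * x + φ J))) := by
        unfold GG
        rw [← exp_add, Finset.sum_range_succ]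
        congr 1
        ring
      rw [h3]
      have h4 := exp_le_quad h0 h1 (abs_term_le (ω := ω) (φ := φ) hs J x)
      have h5 : 0 ≤ GG η ω s φ J x := (exp_pos _).le
      nlinarith
    have h3 : (π / ω J) * (1 + η * ∑ j ∈ Finset.range J, ω j) ≤ 4 * (1 / ω J) + 2 * η := by
      have h4 := (sum_freq_le hω0 hω J).2
      have h5 := hpos J
      have h6 : π / ω J * (1 + η * ∑ j ∈ Finset.range J, ω j) ≤ π / ω J * (1 + η * (ω J / 3)) := by
        gcongr
      have h7 : π / ω J * (1 + η * (ω J / 3)) = π * (1 / ω J) + π / 3 * η := by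
        field_simp
      have h8 : π ≤ 4 := pi_le_four
      have h9 : 0 < 1 / ω J := by positivity
      nlinarith
    have h4 : η * s J * ∫ x, GG η ω s φ J x * cos (ω J * x + φ J) ≤
        η * ((4 * (1 / ω J) + 2 * η) * I) := by
      calc η * s J * ∫ x, GG η ω s φ J x * cos (ω J * x + φ J)
          ≤ |η * s J * ∫ x, GG η ω s φ J x * cos (ω J * x + φ J)| := le_abs_self _
        _ = η * (|s J| * |∫ x, GG η ω s φ J x * cos (ω J * x + φ J)|) := by
            rw [abs_mul, abs_mul, abs_of_nonneg h0, mul_assoc]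
        _ ≤ η * (1 * ((1 + η * ∑ j ∈ Finset.range J, ω j) * (π / ω J) * I)) := by
            gcongr
            · exact hs J
        _ ≤ η * ((4 * (1 / ω J) + 2 * η) * I) := by
            rw [one_mul, mul_comm (1 + η * ∑ j ∈ Finset.range J, ω j) (π / ω J)]
            gcongr
    have h5 : 0 < 1 / ω J := by have := hpos J; positivity
    have h6 : ∫ x, GG η ω s φ (J + 1) x ≤ exp (3 * η ^ 2 + 4 * (1 / ω J)) * I := by
      have h7 : 1 + η ^ 2 + η * (4 * (1 / ω J) + 2 * η) ≤ exp (3 * η ^ 2 + 4 * (1 / ω J)) := by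
        have h8 := add_one_le_exp (3 * η ^ 2 + 4 * (1 / ω J))
        nlinarith
      calc ∫ x, GG η ω s φ (J + 1) x ≤ (1 + η ^ 2) * I + η * ((4 * (1 / ω J) + 2 * η) * I) := by
            linarith
        _ = (1 + η ^ 2 + η * (4 * (1 / ω J) + 2 * η)) * I := by ring
        _ ≤ _ := by gcongr
    refine h6.trans ?_
    calc exp (3 * η ^ 2 + 4 * (1 / ω J)) * I ≤ exp (3 * η ^ 2 + 4 * (1 / ω J)) *
          (2 * exp (3 * η ^ 2 * J + 4 * ∑ j ∈ Finset.range J, 1 / ω j)) := by gcongr
      _ = 2 * (exp (3 * η ^ 2 + 4 * (1 / ω J)) *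
          exp (3 * η ^ 2 * J + 4 * ∑ j ∈ Finset.range J, 1 / ω j)) := by ring
      _ = _ := by
          rw [← exp_add, Finset.sum_range_succ]
          push_cast
          congr 2
          ring

/-- **Exponential moments of lacunary cosine sums.** -/
theorem laplace {η L : ℝ} (h0 : 0 ≤ η) (h1 : η ≤ 1) (hL : 0 ≤ L) (J : ℕ) (ω s φ : ℕ → ℝ)
    (hs : ∀ j, |s j| ≤ 1) (hω0 : 0 < ω 0) (hω : ∀ j, 4 * ω j ≤ ω (j + 1)) :
    ∫ x in (-L)..L, exp (η * ∑ j ∈ Finset.range J, s j * cos (ω j * x + φ j)) ≤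
      exp (L + 20 + 20 / ω 0 + 20 * η ^ 2 * J) := by
  have hI := GG_moment h0 h1 (φ := φ) hs hω0 hω J
  have hint := GG_integrable h0 (ω := ω) (φ := φ) hs J
  have h2 : ∫ x in (-L)..L, exp (η * ∑ j ∈ Finset.range J, s j * cos (ω j * x + φ j)) ≤
      exp L * ∫ x, GG η ω s φ J x := by
    rw [intervalIntegral.integral_of_le (by linarith), ← integral_const_mul]
    refine le_trans (setIntegral_mono_on (g := fun x => exp L * GG η ω s φ J x) ?_
      (hint.const_mul _).integrableOn measurableSet_Ioc fun x hx => ?_) ?_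
    · refine (Continuous.integrableOn_Ioc ?_)
      fun_prop
    · unfold GG
      rw [← exp_add]
      refine exp_le_exp.2 ?_
      have : |x| ≤ L := abs_le.2 ⟨by linarith [hx.1], hx.2⟩
      linarith
    · refine setIntegral_le_integral (hint.const_mul _) (Eventually.of_forall fun x => ?_)
      show 0 ≤ exp L * GG η ω s φ J x
      unfold GG
      positivity
  have h3 := sum_inv_freq_le hω0 hω J
  have hpos := (sum_freq_le hω0 hω 0).1
  have h4 : 0 < 1 / ω J := by have := hpos J; positivity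
  have h5 : 0 < 1 / ω 0 := by positivity
  refine h2.trans ?_
  calc exp L * ∫ x, GG η ω s φ J x ≤ exp L *
        (2 * exp (3 * η ^ 2 * J + 4 * ∑ j ∈ Finset.range J, 1 / ω j)) := by gcongr
    _ ≤ exp L * (exp 1 * exp (3 * η ^ 2 * J + 4 * ∑ j ∈ Finset.range J, 1 / ω j)) := by
        gcongr
        have := add_one_le_exp (1 : ℝ)
        linarith
    _ = exp (L + (1 + (3 * η ^ 2 * J + 4 * ∑ j ∈ Finset.range J, 1 / ω j))) := by
        rw [← exp_add, ← exp_add]
    _ ≤ _ := by
        refine exp_le_exp.2 ?_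
        have h6 : 0 ≤ η ^ 2 * (J : ℝ) := by positivity
        have h7 : 20 / ω 0 = 20 * (1 / ω 0) := by ring
        rw [h7]
        nlinarith

end Vale.Agent.P105.H892
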