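import Vale.Agent.P105.H5.GDim
import Vale.Agent.P105.H892.Basic
import Vale.Agent.P105.H892.Laplace

/-!
# The entropy of a partial sum along one state, for an arbitrary finite digit law
-/

open MeasureTheory Real Filter Topology
open scoped ENNReal

namespace Vale.Agent.P105.H892

open Vale.Agent.P105.H5.G

/-- lacunary frequencies: the sum is comparable with the last term -/
theorem sum_lac' {q : ℝ} (hq : 4 ≤ q) (J : ℕ) : ∑ j ∈ Finset.range J, q ^ j ≤ q ^ J / 3 := by
  induction J with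
  | zero => simp
  | succ J ih =>
    rw [Finset.sum_range_succ, pow_succ]
    have : 0 < q ^ J := by positivity
    nlinarith

/-- the oscillation of a cosine sum -/
theorem osc_le' {η δ S : ℝ} {J : ℕ} {ω s φ : ℕ → ℝ} (hη0 : 0 ≤ η) (hη1 : η ≤ 1) (hδ : 0 ≤ δ)
    (hs : ∀ j, |s j| ≤ 1) (hω : ∀ j, 0 ≤ ω j) (hS : (∑ j ∈ Finset.range J, ω j) * δ ≤ S)
    {x y : ℝ} (h : |x - y| ≤ δ) :
    η * ∑ j ∈ Finset.range J, s j * cos (ω j * y + φ j) ≤
      S + η * ∑ j ∈ Finset.range J, s j * cos (ω j * x + φ j) := by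
  have h1 : ∀ j ∈ Finset.range J, s j * cos (ω j * y + φ j) - s j * cos (ω j * x + φ j) ≤
      ω j * δ := by
    intro j _
    have h2 : |cos (ω j * y + φ j) - cos (ω j * x + φ j)| ≤ ω j * δ := by
      have h3 : |cos (ω j * y + φ j) - cos (ω j * x + φ j)| ≤
          |(ω j * y + φ j) - (ω j * x + φ j)| := abs_cos_sub_cos_le _ _
      refine h3.trans ?_
      have h4 : (ω j * y + φ j) - (ω j * x + φ j) = ω j * (y - x) := by ring
      rw [h4, abs_mul, abs_of_nonneg (hω j), abs_sub_comm]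
      exact mul_le_mul_of_nonneg_left h (hω j)
    calc s j * cos (ω j * y + φ j) - s j * cos (ω j * x + φ j)
        = s j * (cos (ω j * y + φ j) - cos (ω j * x + φ j)) := by ring
      _ ≤ |s j * (cos (ω j * y + φ j) - cos (ω j * x + φ j))| := le_abs_self _
      _ = |s j| * |cos (ω j * y + φ j) - cos (ω j * x + φ j)| := abs_mul _ _
      _ ≤ 1 * (ω j * δ) := mul_le_mul (hs j) h2 (abs_nonneg _) zero_le_one
      _ = ω j * δ := one_mul _
  have h2 := Finset.sum_le_sum h1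
  rw [Finset.sum_sub_distrib, ← Finset.sum_mul] at h2
  have h3 : 0 ≤ (∑ j ∈ Finset.range J, ω j) * δ :=
    mul_nonneg (Finset.sum_nonneg fun j _ => hω j) hδ
  nlinarith

variable {ι : Type*} [Fintype ι] [MeasurableSpace ι] [MeasurableSingletonClass ι]
  (P : Measure ι) [IsProbabilityMeasure P] (d : ι → ℝ)

/-- **The estimate at one state, general digits.** `θ` is the normalisation of the frequencies
(`π` or `2 π`), `u` the state, `a` the lower bound for the Fourier transform at the frequencies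
`θ b ^ (g j) u`, `j < J`. -/
theorem gentropy_state {b u a u₀ C L θ : ℝ} {D g n J : ℕ} (hb : 1 < b) (hC : 0 < C) (hL : 0 ≤ L)
    (hθ1 : 1 ≤ θ) (hθ2 : θ ≤ 8)
    (hval : ∀ y ∈ vals d b⁻¹ n, |y| ≤ L)
    (hcount : ∀ x : ℝ, (((vals d b⁻¹ n).filter fun y => x ≤ y ∧ y ≤ x + b⁻¹ ^ n).card : ℝ) ≤
        C * n ^ 2)
    (hgibbs : ∀ F : ℝ → ℝ, gent P d b⁻¹ n ≤ log (∑ y ∈ vals d b⁻¹ n, exp (F y)) -
      ∑ e : Fin n → ι, wt P n e * F (gsum d b⁻¹ n e))
    (hg : 4 ≤ b ^ g) (hu₀ : 0 < u₀) (hu : u₀ ≤ u) (huD : u ≤ b ^ D) (ha : 0 < a) (ha1 : a ≤ 1)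
    {φ : ℕ → ℝ} (hmean : ∀ j < J, a ≤ ∑ e : Fin n → ι, wt P n e *
      cos (θ * (b ^ (g * j) * u) * gsum d b⁻¹ n e + φ j))
    (hn : D + g * J + 1 ≤ n) :
    gent P d b⁻¹ n ≤ n * log b + (log C + 2 * log n + 5 + (L + 1 + 20 + 20 / u₀)) -
      a ^ 2 * J / 80 := by
  have hb0 : 0 < b := by linarith
  have hbi0 : 0 < b⁻¹ := by positivity
  have hbi1 : b⁻¹ < 1 := inv_lt_one_of_one_lt₀ hb
  have hθ0 : 0 < θ := by linarith
  have hu0 : 0 < u := lt_of_lt_of_le hu₀ hu
  have hn1 : 1 ≤ n := by omega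
  set ω : ℕ → ℝ := fun j => θ * (b ^ (g * j) * u) with hω
  have hω0 : ∀ j, 0 < ω j := fun j => by
    simp only [hω]
    positivity
  set η : ℝ := a / 40 with hη
  have hη0 : 0 ≤ η := by positivity
  have hη1 : η ≤ 1 := by rw [hη]; linarith
  have habs : ∀ j : ℕ, |(fun _ : ℕ => (1 : ℝ)) j| ≤ 1 := fun j => by simp
  set F : ℝ → ℝ := fun x => η * ∑ j ∈ Finset.range J, (fun _ : ℕ => (1 : ℝ)) j *
    cos (ω j * x + φ j) with hF
  set δ : ℝ := b⁻¹ ^ n with hδ
  have hδ0 : 0 < δ := by positivity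
  have hδ1 : δ ≤ 1 := pow_le_one₀ hbi0.le hbi1.le
  -- the mean of `F`
  have hmeanF : η * (J * a) ≤ ∑ e : Fin n → ι, wt P n e * F (gsum d b⁻¹ n e) := by
    have h1 : ∑ e : Fin n → ι, wt P n e * F (gsum d b⁻¹ n e) =
        η * ∑ j ∈ Finset.range J, ∑ e : Fin n → ι, wt P n e *
          cos (θ * (b ^ (g * j) * u) * gsum d b⁻¹ n e + φ j) := by
      simp only [hF, hω, one_mul]
      rw [Finset.sum_comm, Finset.mul_sum]
      refine Finset.sum_congr rfl fun e _ => ?_
      rw [Finset.mul_sum, Finset.mul_sum, Finset.mul_sum]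
      exact Finset.sum_congr rfl fun j _ => by ring
    rw [h1]
    refine mul_le_mul_of_nonneg_left ?_ hη0
    have h2 : ∑ _j ∈ Finset.range J, a ≤ ∑ j ∈ Finset.range J, ∑ e : Fin n → ι, wt P n e *
          cos (θ * (b ^ (g * j) * u) * gsum d b⁻¹ n e + φ j) :=
      Finset.sum_le_sum fun j hj => hmean j (Finset.mem_range.1 hj)
    simpa only [Finset.sum_const, Finset.card_range, nsmul_eq_mul] using h2
  -- the oscillation
  have hsum : (∑ j ∈ Finset.range J, ω j) * δ ≤ 5 := by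
    have h1 : ∑ j ∈ Finset.range J, ω j = θ * u * ∑ j ∈ Finset.range J, (b ^ g) ^ j := by
      rw [Finset.mul_sum]
      refine Finset.sum_congr rfl fun j _ => ?_
      simp only [hω]
      rw [pow_mul]
      ring
    have h2 := sum_lac' hg J
    have h3 : u * (b ^ g) ^ J * δ ≤ 1 := by
      have h4 : (b ^ g) ^ J = b ^ (g * J) := (pow_mul b g J).symm
      have h5 : b ^ D * b ^ (g * J) ≤ b ^ n := by
        rw [← pow_add]
        exact pow_le_pow_right₀ hb.le (by omega)
      have h6 : b ^ n * δ = 1 := by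
        rw [hδ, ← mul_pow, mul_inv_cancel₀ hb0.ne', one_pow]
      rw [h4]
      calc u * b ^ (g * J) * δ ≤ b ^ D * b ^ (g * J) * δ := by gcongr
        _ ≤ b ^ n * δ := by gcongr
        _ = 1 := h6
    rw [h1]
    calc θ * u * (∑ j ∈ Finset.range J, (b ^ g) ^ j) * δ ≤ θ * u * ((b ^ g) ^ J / 3) * δ := by
          gcongr
      _ = θ / 3 * (u * (b ^ g) ^ J * δ) := by ring
      _ ≤ θ / 3 * 1 := by gcongr
      _ ≤ 5 := by linarith
  -- Gibbs, the lattice count and the Laplace transform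
  have hlac : ∀ j, 4 * ω j ≤ ω (j + 1) := fun j => by
    simp only [hω]
    rw [mul_add, mul_one, pow_add]
    have : 0 < b ^ (g * j) * u := by positivity
    nlinarith [mul_pos hθ0 this]
  have hlap := laplace hη0 hη1 (show 0 ≤ L + δ by positivity) J ω (fun _ => 1) φ
    habs (hω0 0) hlac
  have hcont : Continuous fun x => exp (F x) := by
    simp only [hF]
    fun_prop
  have hle := sum_le_integral (V := vals d b⁻¹ n) (L := L) (δ := δ)
    (K := C * n ^ 2) (M := 5) hL hδ0 (by positivity) hval hcount hcont (fun x => (exp_pos _).le)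
    (fun x y hxy => by
      rw [← exp_add]
      exact exp_le_exp.2 (osc_le' hη0 hη1 hδ0.le habs (fun j => (hω0 j).le) hsum hxy))
  have hgibbs := hgibbs F
  have hδinv : δ⁻¹ = b ^ n := by rw [hδ, inv_pow, inv_inv]
  have hn0 : (0 : ℝ) < n := by exact_mod_cast hn1
  have hbound : ∑ y ∈ vals d b⁻¹ n, exp (F y) ≤
      exp (log C + 2 * log n + n * log b + 5 + (L + δ + 20 + 20 / ω 0 + 20 * η ^ 2 * J)) := by
    refine hle.trans ?_
    rw [exp_add, exp_add (log C + 2 * log n + n * log b), hδinv]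
    have e1 : exp (log C + 2 * log n + n * log b) = C * n ^ 2 * b ^ n := by
      rw [exp_add, exp_add, exp_log hC, mul_comm 2 (log (n : ℝ)), exp_mul, exp_log hn0,
        mul_comm (n : ℝ) (log b), exp_mul, exp_log hb0, rpow_natCast]
      norm_num
    rw [e1]
    have h5 : 0 ≤ C * (n : ℝ) ^ 2 * b ^ n * exp 5 := by positivity
    exact mul_le_mul_of_nonneg_left hlap h5
  have hne : (vals d b⁻¹ n).Nonempty := by
    by_contra h
    rw [Finset.not_nonempty_iff_eq_empty] at h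
    have h1 := sum_gprob_one P d b⁻¹ n
    rw [h, Finset.sum_empty] at h1
    exact zero_ne_one h1
  have hlog : log (∑ y ∈ vals d b⁻¹ n, exp (F y)) ≤
      log C + 2 * log n + n * log b + 5 + (L + δ + 20 + 20 / ω 0 + 20 * η ^ 2 * J) := by
    rw [← log_exp (log C + 2 * log n + n * log b + 5 + (L + δ + 20 + 20 / ω 0 + 20 * η ^ 2 * J))]
    exact log_le_log (Finset.sum_pos (fun y _ => exp_pos _) hne) hbound
  have hω0' : 20 / ω 0 ≤ 20 / u₀ := by
    have h1 : u₀ ≤ ω 0 := by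
      simp only [hω, mul_zero, pow_zero, one_mul]
      nlinarith
    gcongr
  have hfin : 20 * η ^ 2 * J - η * (J * a) = -(a ^ 2 * J / 80) := by
    rw [hη]
    ring
  linarith

end Vale.Agent.P105.H892
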