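import Mathlib

/-!
# The Hausdorff dimension of a measure on the line
-/

open MeasureTheory
open scoped ENNReal

namespace Vale.Agent.P105

/-- The Hausdorff dimension of a measure on the line: the infimum of the Hausdorff dimensions of
the Borel sets of full measure (of measure one). -/
noncomputable def hdim (μ : Measure ℝ) : ℝ≥0∞ :=
  ⨅ (A : Set ℝ) (_ : MeasurableSet A) (_ : μ A = 1), dimH A

end Vale.Agent.P105
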