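import Vale.Agent.P105.H892.DimDef
import Vale.Agent.P105.Dig.Main
import Vale.Agent.P105.H5.Coin

/-!
# Dimension drop for Salem numbers of degree four: final assembly
-/

open MeasureTheory Real Filter Topology
open scoped ENNReal

namespace Vale.Agent.P105.H892

open Vale.Agent.P105.Salem

theorem hdim_lt_one {μ : Measure ℝ} {A : Set ℝ} (hA : MeasurableSet A) (h1 : μ A = 1)
    (hd : dimH A < 1) : hdim μ < 1 :=
  lt_of_le_of_lt (iInf_le_of_le A (iInf_le_of_le hA (iInf_le_of_le h1 le_rfl))) hd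

theorem exists_of_hdim {μ : Measure ℝ} (h : hdim μ < 1) :
    ∃ A : Set ℝ, MeasurableSet A ∧ μ A = 1 ∧ dimH A < 1 := by
  unfold hdim at h
  simp only [iInf_lt_iff] at h
  obtain ⟨A, hA, h1, hd⟩ := h
  exact ⟨A, hA, h1, hd⟩

theorem sgn_eq (i : Bool) : sgn i = -1 + 2 * (((if i then 1 else 0 : ℤ) : ℤ) : ℝ) := by
  cases i <;> simp [sgn] <;> norm_num

/-- the dimension drop for Bernoulli convolutions -/
theorem bernConv_dim {lam : ℝ} (h0 : 0 < lam) (hS : IsSalem lam⁻¹)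
    (h4 : (minpoly ℚ lam⁻¹).natDegree = 4) :
    ∃ A : Set ℝ, MeasurableSet A ∧ bernConv lam A = 1 ∧ dimH A < 1 := by
  have : IsProbabilityMeasure coin := coin_prob
  exact Dig.digits_dim h0 hS h4 coin sgn (-1) 2 (fun i => if i then 1 else 0) sgn_eq

/-- the entropy drop -/
theorem garsia_lt {lam : ℝ} (h0 : 0 < lam) (hS : IsSalem lam⁻¹)
    (h4 : (minpoly ℚ lam⁻¹).natDegree = 4) : garsiaEntropy lam < log lam⁻¹ := by
  have : IsProbabilityMeasure coin := coin_prob
  obtain ⟨hi', ζ, hζ, hT, p, hp, hp1, hp2, hp3⟩ := H897.exists_zeta_poly hS h4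
  obtain ⟨n, hn, hlt⟩ := Dig.exists_gent_lt coin (fun i : Bool => if i then (1 : ℤ) else -1)
    hS.1 hζ hS.2.1 hi' hT hp hp1 hp2 hp3
  have e : (fun i : Bool => ((if i then (1 : ℤ) else -1 : ℤ) : ℝ)) = sgn := by
    funext i
    cases i <;> simp [sgn]
  rw [e, inv_inv, ← H5.psumEntropy_eq] at hlt
  have := H5.garsiaEntropy_lt hn (by rwa [one_div])
  rwa [one_div] at this

end Vale.Agent.P105.H892
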